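import Vale.Agent.P213.Transfer.Assemble
import Vale.Agent.P213.Cylinder.Main
import Vale.Agent.P213.Steiner.Free

/-!
# P213, Q1: the Ara-Maltsiniotis conjecture

For every n in {1, 2, ...} and n = omega the category of small strict n-categories is complete and
cocomplete, the classes W_n, F_n, C_n form a model structure on it, and the adjunction of the
problem is a Quillen equivalence with simplicial sets.
-/

universe u

namespace Vale.Agent.Results.P213.AraMaltsiniotis

open CategoryTheory CategoryTheory.Limits Vale.Agent.P213

theorem result : ∀ n : ℕ∞, 1 ≤ n →
    HasLimits (NCat.{u} n) ∧ HasColimits (NCat.{u} n) ∧ Conjecture.{u} n := fun n hn =>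
  ⟨(bicomplete n).1, (bicomplete n).2,
    conjecture_of_cylinder n hn (cylinder n) freeZero freeSucc freeExt⟩

end Vale.Agent.Results.P213.AraMaltsiniotis
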